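import Mathlib

/-!
The moving lemma for the odd theorem: definitions and literal statements (pure algebra).
-/

namespace Vale.Agent.P287.Mv

open MvPolynomial

/-- forms in three variables -/
abbrev R3 : Type := MvPolynomial (Fin 3) ℂ

/-- the algebraic closure of `ℂ(T)` -/
abbrev EE : Type := AlgebraicClosure (FractionRing (Polynomial ℂ))

/-- the Fermat type form `x₀^j + μ x₁^j + μ² x₂^j` -/
noncomputable def lf (j : ℕ) (μ : ℂ) : R3 := X 0 ^ j + C μ * X 1 ^ j + C (μ ^ 2) * X 2 ^ j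

/-- the pencil `g₀ + 2 T l a + T² l² g`, with coefficients in `ℂ[T]` -/
noncomputable def pencil (g₀ a l g : R3) : MvPolynomial (Fin 3) (Polynomial ℂ) :=
  map Polynomial.C g₀ + C (2 * Polynomial.X) * map Polynomial.C (l * a) +
    C (Polynomial.X ^ 2) * map Polynomial.C (l ^ 2 * g)

/-- the generic member -/
noncomputable def gen (G : MvPolynomial (Fin 3) (Polynomial ℂ)) : MvPolynomial (Fin 3) EE :=
  map (algebraMap (Polynomial ℂ) EE) G

/-- the member at `t` -/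
noncomputable def at' (t : ℂ) (G : MvPolynomial (Fin 3) (Polynomial ℂ)) : R3 :=
  map (Polynomial.evalRingHom t) G

/-- [MV2] the generic member of the pencil is irreducible -/
def Stmt2 : Prop := ∀ (n j : ℕ) (f g a b g₀ : R3) (μ : ℂ), Odd n → n < j →
  f.IsHomogeneous 6 → Irreducible f → g.IsHomogeneous n → Irreducible g →
  a.IsHomogeneous (n + j) → g₀.IsHomogeneous (n + 2 * j) → ¬ g ∣ g₀ → b ≠ 0 →
  a ^ 2 - b ^ 2 * f = g * g₀ → μ ≠ 0 → ¬ lf j μ ∣ g₀ →
  Irreducible (gen (pencil g₀ a (lf j μ) g))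

/-- [MV3] specialisation -/
def Stmt3 : Prop := ∀ (d : ℕ) (G : MvPolynomial (Fin 3) (Polynomial ℂ)), G.IsHomogeneous d →
  Irreducible (gen G) → {t : ℂ | ¬ Irreducible (at' t G)}.Finite

/-- [MVZ] coprime forms have finitely many common zeros -/
def StmtZ : Prop := ∀ (f b : R3) (m k : ℕ), f.IsHomogeneous m → b.IsHomogeneous k →
  Irreducible f → ¬ f ∣ b → ∃ S : Finset (Fin 3 → ℂ), (∀ z ∈ S, z ≠ 0) ∧
    ∀ z : Fin 3 → ℂ, z ≠ 0 → aeval z f = 0 → aeval z b = 0 →
      ∃ z' ∈ S, ∃ r : ℂ, r ≠ 0 ∧ z = r • z'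

end Vale.Agent.P287.Mv
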