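import Vale.Agent.P287.Mv.GalFactor
import Vale.Agent.P287.Mv.Spec0

/-!
Reduction of factorisations modulo a valuation ring.
-/

namespace Vale.Agent.P287.Mv

open MvPolynomial

variable {σ : Type*} {E : Type*} [Field E] (V : ValuationSubring E)

/-- inclusion of the valuation ring, on polynomials -/
noncomputable def inc : MvPolynomial σ V →+* MvPolynomial σ E := map V.subtype

/-- reduction of polynomials -/
noncomputable def red : MvPolynomial σ V →+* MvPolynomial σ (IsLocalRing.ResidueField V) :=
  map (IsLocalRing.residue V)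

lemma inc_injective : Function.Injective (inc V : MvPolynomial σ V →+* _) :=
  map_injective _ Subtype.val_injective

variable {V}

lemma exists_primitive {P : MvPolynomial σ E} (hP : P ≠ 0) :
    ∃ (P' : MvPolynomial σ V) (c : E), c ≠ 0 ∧ inc V P' = C c * P ∧ red V P' ≠ 0 := by
  obtain ⟨m, hm, hmax⟩ := P.support.exists_max_image (fun m => V.valuation (coeff m P))
    (support_nonempty.2 hP)
  have hc : coeff m P ≠ 0 := mem_support_iff.1 hm
  have h1 : C (coeff m P)⁻¹ * P ∈ Set.range (map V.subtype : MvPolynomial σ V → _) := by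
    rw [mem_range_map_iff_coeffs_subset]
    intro a ha
    obtain ⟨i, _, rfl⟩ := mem_coeffs_iff.1 ha
    rw [coeff_C_mul]
    have h2 : (coeff m P)⁻¹ * coeff i P ∈ V := by
      rw [← V.valuation_le_one_iff, map_mul, map_inv₀]
      by_cases hi : i ∈ P.support
      · have h3 := hmax i hi
        have h4 : V.valuation (coeff m P) ≠ 0 := (V.valuation.ne_zero_iff).2 hc
        calc (V.valuation (coeff m P))⁻¹ * V.valuation (coeff i P)
            ≤ (V.valuation (coeff m P))⁻¹ * V.valuation (coeff m P) := mul_le_mul_right h3 _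
          _ = 1 := inv_mul_cancel₀ h4
      · rw [notMem_support_iff.1 hi, map_zero, mul_zero]
        exact zero_le_one
    exact ⟨⟨_, h2⟩, rfl⟩
  obtain ⟨P', hP'⟩ := h1
  refine ⟨P', (coeff m P)⁻¹, inv_ne_zero hc, hP', ?_⟩
  intro h0
  have h2 := congrArg (coeff m) hP'
  rw [coeff_map, coeff_C_mul, inv_mul_cancel₀ hc] at h2
  have h3 : coeff m P' = 1 := Subtype.ext h2
  have h4 := congrArg (coeff m) h0
  rw [red, coeff_map, h3, map_one, coeff_zero] at h4
  exact one_ne_zero h4

/-- the relation between a polynomial and a primitive multiple -/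
def PrimRel (P : MvPolynomial σ E) (P' : MvPolynomial σ V) : Prop :=
  ∃ c : E, c ≠ 0 ∧ inc V P' = C c * P ∧ red V P' ≠ 0

lemma exists_primitive_multiset {F : Multiset (MvPolynomial σ E)} (h : ∀ P ∈ F, P ≠ 0) :
    ∃ F' : Multiset (MvPolynomial σ V), Multiset.Rel PrimRel F F' := by
  induction F using Multiset.induction_on with
  | empty => exact ⟨0, Multiset.Rel.zero⟩
  | cons P F ih =>
    obtain ⟨F', hF'⟩ := ih fun Q hQ => h Q (Multiset.mem_cons_of_mem hQ)
    obtain ⟨P', c, h1, h2, h3⟩ := exists_primitive (V := V) (h P (Multiset.mem_cons_self _ _))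
    exact ⟨P' ::ₘ F', Multiset.Rel.cons ⟨c, h1, h2, h3⟩ hF'⟩

lemma primRel_prod {F : Multiset (MvPolynomial σ E)} {F' : Multiset (MvPolynomial σ V)}
    (h : Multiset.Rel PrimRel F F') : PrimRel F.prod F'.prod := by
  induction h with
  | zero => exact ⟨1, one_ne_zero, by simp, by simp⟩
  | cons hab _ ih =>
    obtain ⟨c, h1, h2, h3⟩ := hab
    obtain ⟨c', h1', h2', h3'⟩ := ih
    refine ⟨c * c', mul_ne_zero h1 h1', ?_, ?_⟩
    · rw [Multiset.prod_cons, Multiset.prod_cons, map_mul, h2, h2', C_mul]
      ring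
    · rw [Multiset.prod_cons, map_mul]
      exact mul_ne_zero h3 h3'

lemma red_C (c : V) : red V (C c : MvPolynomial σ V) = C (IsLocalRing.residue V c) := by
  rw [red, map_C]

lemma inc_C (c : V) : inc V (C c : MvPolynomial σ V) = C (c : E) := by
  rw [inc, map_C]
  rfl

/-- two primitive polynomials which are proportional over the field have proportional
reductions -/
lemma red_associated {A B : MvPolynomial σ V} (hA : red V A ≠ 0) (hB : red V B ≠ 0) {u : E}
    (h : inc V A = C u * inc V B) : Associated (red V A) (red V B) := by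
  rcases V.mem_or_inv_mem u with hu | hu
  · have h1 : A = C ⟨u, hu⟩ * B := by
      apply inc_injective V
      rw [map_mul, inc_C]
      exact h
    rw [h1, map_mul, red_C] at hA ⊢
    refine (associated_iff_C.2 ⟨IsLocalRing.residue V ⟨u, hu⟩, ?_, rfl⟩).symm
    intro h0
    rw [h0, C_0, zero_mul] at hA
    exact hA rfl
  · have hu0 : u ≠ 0 := by
      rintro rfl
      rw [C_0, zero_mul] at h
      have : A = 0 := inc_injective V (by rw [h, map_zero])
      rw [this, map_zero] at hA
      exact hA rfl
    have h1 : B = C ⟨u⁻¹, hu⟩ * A := by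
      apply inc_injective V
      rw [map_mul, inc_C, h, ← mul_assoc, ← C_mul, inv_mul_cancel₀ hu0, C_1, one_mul]
    rw [h1, map_mul, red_C] at hB ⊢
    refine associated_iff_C.2 ⟨IsLocalRing.residue V ⟨u⁻¹, hu⟩, ?_, rfl⟩
    intro h0
    rw [h0, C_0, zero_mul] at hB
    exact hB rfl

/-- A prime factor of the reduction divides the reduction of a factor. -/
theorem degree_le_of_prime {F : Multiset (MvPolynomial σ E)} {a : ℕ}
    (hF : ∀ P ∈ F, P ≠ 0 ∧ P.IsHomogeneous a) {G : MvPolynomial σ V} (hG : red V G ≠ 0) {u : E}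
    (h : F.prod = C u * inc V G) {L : MvPolynomial σ (IsLocalRing.ResidueField V)}
    (hL : Prime L) {j : ℕ} (hLj : L.IsHomogeneous j) (hLG : L ∣ red V G) : j ≤ a := by
  obtain ⟨F', hF'⟩ := exists_primitive_multiset (V := V) fun P hP => (hF P hP).1
  obtain ⟨c, hc, h1, h2⟩ := primRel_prod hF'
  have h3 : Associated (red V F'.prod) (red V G) := by
    apply red_associated h2 hG (u := c * u)
    rw [h1, h, C_mul, mul_assoc]
  have h4 : L ∣ (F'.map (red V)).prod := by
    rw [Multiset.prod_hom]
    exact hLG.trans h3.symm.dvd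
  obtain ⟨Q, hQ, hLQ⟩ := hL.exists_mem_multiset_dvd h4
  obtain ⟨P', hP', rfl⟩ := Multiset.mem_map.1 hQ
  obtain ⟨P, hP, c', hc', h5, h6⟩ := Multiset.exists_mem_of_rel_of_mem
    ((Multiset.rel_flip (s := F') (t := F)).2 hF') hP'
  have h7 : (red V P').IsHomogeneous a := by
    have h8 : (inc V P').IsHomogeneous a := by
      rw [h5]
      have := (isHomogeneous_C σ c').mul (hF P hP).2
      rwa [zero_add] at this
    refine IsHomogeneous.map ?_ _
    intro m hm
    apply h8
    rw [inc, coeff_map]
    intro h0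
    exact hm (Subtype.ext h0)
  obtain ⟨S, hS⟩ := hLQ
  have h8 := h7.totalDegree h6
  rw [hS, totalDegree_mul_of_isDomain hL.ne_zero (by
    rintro rfl
    rw [mul_zero] at hS
    exact h6 hS), hLj.totalDegree hL.ne_zero] at h8
  omega

end Vale.Agent.P287.Mv
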