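import Vale.Agent.P287.Mv.Quad
import Vale.Agent.P287.Mv.Place

/-!
The generic member of the pencil is irreducible over the algebraic closure of `ℂ(T)`.
-/

namespace Vale.Agent.P287.Mv

open MvPolynomial

/-- the parameter -/
noncomputable def TT : EE := algebraMap (Polynomial ℂ) EE Polynomial.X

lemma algebraMap_injective' : Function.Injective (algebraMap (Polynomial ℂ) EE) := by
  rw [IsScalarTower.algebraMap_eq (Polynomial ℂ) (FractionRing (Polynomial ℂ)) EE]
  exact (algebraMap (FractionRing (Polynomial ℂ)) EE).injective.comp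
    (IsFractionRing.injective _ _)

lemma TT_ne_zero : TT ≠ 0 := by
  intro h
  exact Polynomial.X_ne_zero (algebraMap_injective' (by rw [map_zero]; exact h))

lemma algebraMap_C' (c : ℂ) : algebraMap (Polynomial ℂ) EE (Polynomial.C c) =
    algebraMap ℂ EE c :=
  (IsScalarTower.algebraMap_apply ℂ (Polynomial ℂ) EE c).symm

lemma TT_transcendental : ¬ IsAlgebraic ℂ TT := by
  rintro ⟨p, hp, h⟩
  apply hp
  apply algebraMap_injective'
  rw [map_zero, ← h]
  have h1 : (Polynomial.aeval TT : Polynomial ℂ →ₐ[ℂ] EE) =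
      IsScalarTower.toAlgHom ℂ (Polynomial ℂ) EE := by
    apply Polynomial.algHom_ext
    rw [Polynomial.aeval_X]
    rfl
  rw [h1]
  rfl

/-- a place at infinity -/
theorem exists_place : ∃ V : ValuationSubring EE, (∀ c : ℂ, algebraMap ℂ EE c ∈ V) ∧
    TT⁻¹ ∈ V.nonunits := by
  let ev : Polynomial ℂ →ₐ[ℂ] EE := Polynomial.aeval TT⁻¹
  let A : Subring EE := ev.range.toSubring
  have hTA : TT⁻¹ ∈ A := ⟨Polynomial.X, Polynomial.aeval_X _⟩
  have hI : (Ideal.span {(⟨TT⁻¹, hTA⟩ : A)} : Ideal A) ≠ ⊤ := by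
    intro h
    rw [Ideal.eq_top_iff_one, Ideal.mem_span_singleton] at h
    obtain ⟨⟨_, q, rfl⟩, hq⟩ := h
    have h1 : (1 : EE) = TT⁻¹ * ev q := congrArg Subtype.val hq
    have h2 : ev (Polynomial.X * q - 1) = 0 := by
      rw [map_sub, map_mul, map_one, Polynomial.aeval_X, ← h1, sub_self]
    have h3 : Polynomial.X * q - 1 = 0 := by
      by_contra h4
      have h5 : IsAlgebraic ℂ TT⁻¹ := ⟨_, h4, h2⟩
      exact TT_transcendental (IsAlgebraic.inv_iff.1 h5)
    have h4 := congrArg (Polynomial.eval 0) h3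
    simp at h4
  obtain ⟨V, hV, hVI⟩ := Ideal.image_subset_nonunits_valuationSubring _ hI
  exact ⟨V, fun c => hV ⟨Polynomial.C c, Polynomial.aeval_C _ _⟩,
    hVI ⟨⟨TT⁻¹, hTA⟩, Ideal.subset_span rfl, rfl⟩⟩

lemma gen_map (p : R3) : gen (map Polynomial.C p) = map (algebraMap ℂ EE) p := by
  rw [gen, map_map]
  rfl

lemma gen_pencil (g₀ a l g : R3) : gen (pencil g₀ a l g) =
    map (algebraMap ℂ EE) g₀ + C (2 * TT) * map (algebraMap ℂ EE) (l * a) +
      C (TT ^ 2) * map (algebraMap ℂ EE) (l ^ 2 * g) := by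
  have h : ∀ p : Polynomial ℂ, gen (C p) = C (algebraMap (Polynomial ℂ) EE p) := by
    intro p
    rw [gen, map_C]
  have hadd : ∀ p q, gen (p + q) = gen p + gen q := fun p q => map_add _ p q
  have hmul : ∀ p q, gen (p * q) = gen p * gen q := fun p q => map_mul _ p q
  rw [pencil, hadd, hadd, hmul, hmul, gen_map, gen_map, gen_map, h, h, map_mul, map_pow,
    map_ofNat]
  rfl

/-- **[MV2]** -/
theorem stmt2 : Stmt2 := by
  intro n j f g a b g₀ μ hn hnj hf6 hf hgn hg ha hg₀ hgg hb h hμ hlg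
  have hj0 : j ≠ 0 := by omega
  have hl := irreducible_lf hj0 hμ
  have hlh := lf_homog j μ
  set l := lf j μ with hldef
  have hPi := pencil_irreducible hf hg hl hgg hlg hb h
  have hPh := pencil_homog hg₀ ha hlh hgn
  have hPK := pencil_irreducible_frac (by omega) hPh hPi
  obtain ⟨r, F, hF, hFp, hcard⟩ := factors_degree (E := EE) hPK (hPh.map _)
  have hgen : map (algebraMap (FractionRing (Polynomial ℂ)) EE)
      (map (algebraMap (Polynomial ℂ) (FractionRing (Polynomial ℂ))) (pencil g₀ a l g)) =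
      gen (pencil g₀ a l g) := by
    rw [gen, map_map, ← IsScalarTower.algebraMap_eq]
  rw [hgen] at hFp
  obtain ⟨V, hVc, hVT⟩ := exists_place
  -- the constants in the valuation ring
  let φ : ℂ →+* V := (algebraMap ℂ EE).codRestrict V.toSubring hVc
  have hφ : V.subtype.comp φ = algebraMap ℂ EE := rfl
  have hTV : TT⁻¹ ∈ V := V.nonunits_subset hVT
  set u : V := ⟨TT⁻¹, hTV⟩ with hu
  have hures : IsLocalRing.residue V u = 0 := by
    rw [IsLocalRing.residue_eq_zero_iff]
    exact V.mem_nonunits_iff_exists_mem_maximalIdeal.1 hVT |>.choose_spec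
  set G : MvPolynomial (Fin 3) V := C (u ^ 2) * map φ g₀ + C (2 * u) * map φ (l * a) +
    map φ (l ^ 2 * g) with hG
  have hinc : ∀ p : R3, inc V (map φ p) = map (algebraMap ℂ EE) p := by
    intro p
    rw [inc, map_map]
    rfl
  have hincG : inc V G = C (TT⁻¹ ^ 2) * gen (pencil g₀ a l g) := by
    rw [hG, map_add, map_add, map_mul, map_mul, inc_C, inc_C, hinc, hinc, hinc, gen_pencil]
    have e1 : ((2 * u : V) : EE) = 2 * TT⁻¹ := rfl
    have e2 : ((u ^ 2 : V) : EE) = TT⁻¹ ^ 2 := rfl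
    have e3 : (C (TT⁻¹ ^ 2) * C (TT ^ 2) : MvPolynomial (Fin 3) EE) = 1 := by
      rw [← C_mul, ← mul_pow, inv_mul_cancel₀ TT_ne_zero, one_pow, C_1]
    have e4 : (C (TT⁻¹ ^ 2) * C (2 * TT) : MvPolynomial (Fin 3) EE) = C (2 * TT⁻¹) := by
      rw [← C_mul]
      congr 1
      field_simp [TT_ne_zero]
    rw [e1, e2, mul_add, mul_add, ← mul_assoc, ← mul_assoc, e3, e4, one_mul]
  have hredG : red V G = map ((IsLocalRing.residue V).comp φ) (l ^ 2 * g) := by
    rw [hG, map_add, map_add, map_mul, map_mul, red_C, red_C, map_pow, map_mul, hures,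
      zero_pow two_ne_zero, mul_zero, C_0, zero_mul, zero_mul, zero_add, zero_add, red, map_map]
  have hlg0 : l ^ 2 * g ≠ 0 := mul_ne_zero (pow_ne_zero 2 hl.ne_zero) hg.ne_zero
  have hredG0 : red V G ≠ 0 := by
    rw [hredG]
    intro h0
    exact hlg0 (map_injective _ ((IsLocalRing.residue V).comp φ).injective (by rw [h0, map_zero]))
  have hL := (irreducible_map_lf ((IsLocalRing.residue V).comp φ) hj0 hμ).prime
  have hLG : map ((IsLocalRing.residue V).comp φ) l ∣ red V G := by
    rw [hredG, map_mul, map_pow]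
    exact (dvd_pow_self _ two_ne_zero).mul_right _
  obtain ⟨w, hw, hFw⟩ := associated_iff_C.1 hFp.symm
  have hjr : j ≤ r := by
    refine degree_le_of_prime (V := V) (F := F) (a := r)
      (fun P hP => ⟨(hF P hP).1.ne_zero, (hF P hP).2⟩) hredG0 (u := w * TT ^ 2) ?_ hL
      (hlh.map _) hLG
    rw [hincG, hFw, ← mul_assoc, ← C_mul]
    congr 2
    field_simp [TT_ne_zero]
  -- the number of factors is one
  have hodd : Odd (F.card * r) := by
    rw [hcard]
    obtain ⟨i, hi⟩ := hn
    exact ⟨i + j, by omega⟩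
  have hodd' : Odd F.card := Nat.odd_mul.1 hodd |>.1
  have hcard1 : F.card = 1 := by
    obtain ⟨i, hi⟩ := hodd'
    rcases Nat.eq_zero_or_pos i with h0 | h0
    · omega
    · exfalso
      have h1 : 3 * r ≤ F.card * r := Nat.mul_le_mul_right r (by omega)
      omega
  obtain ⟨P, hP⟩ := Multiset.card_eq_one.1 hcard1
  rw [hP, Multiset.prod_singleton] at hFp
  exact hFp.irreducible (hF P (by rw [hP]; exact Multiset.mem_singleton_self P)).1

end Vale.Agent.P287.Mv
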