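import Vale.Agent.P287.Mv.Spec0

/-!
The form `x₀^j + μ x₁^j + μ² x₂^j` is irreducible.
-/

namespace Vale.Agent.P287.Mv

open MvPolynomial

variable {k : Type*} [Field k] [CharZero k]

theorem irreducible_fermat {j : ℕ} (hj : j ≠ 0) {μ θ : k} (hμ : μ ≠ 0) (hθ : θ ^ j = - μ) :
    Irreducible (X 0 ^ j + C μ * X 1 ^ j + C (μ ^ 2) * X 2 ^ j : MvPolynomial (Fin 3) k) := by
  have hθ0 : θ ≠ 0 := by
    rintro rfl
    rw [zero_pow hj] at hθ
    exact hμ (neg_eq_zero.1 hθ.symm)
  rw [← MulEquiv.irreducible_iff (finSuccEquiv k 2)]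
  have h1 : finSuccEquiv k 2 (X 0 ^ j + C μ * X 1 ^ j + C (μ ^ 2) * X 2 ^ j) =
      Polynomial.X ^ j + Polynomial.C (C μ * X 0 ^ j + C (μ ^ 2) * X 1 ^ j) := by
    have e1 : (X 1 : MvPolynomial (Fin 3) k) = X (Fin.succ 0) := rfl
    have e2 : (X 2 : MvPolynomial (Fin 3) k) = X (Fin.succ 1) := rfl
    have hC : ∀ c : k, finSuccEquiv k 2 (C c) = Polynomial.C (C c) := by
      intro c
      exact (finSuccEquiv k 2).commutes c
    simp only [e1, e2, map_add, map_mul, map_pow, finSuccEquiv_X_zero, finSuccEquiv_X_succ, hC]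
    ring
  rw [h1]
  set c₀ : MvPolynomial (Fin 2) k := C μ * X 0 ^ j + C (μ ^ 2) * X 1 ^ j with hc₀
  -- the prime ideal
  let φ : MvPolynomial (Fin 2) k →ₐ[k] Polynomial k :=
    aeval ![Polynomial.C θ * Polynomial.X, Polynomial.X]
  have hφ0 : φ (X 0) = Polynomial.C θ * Polynomial.X := by simp [φ]
  have hφ1 : φ (X 1) = Polynomial.X := by simp [φ]
  have hφC : ∀ c : k, φ (C c) = Polynomial.C c := fun c => φ.commutes c
  set P : Ideal (MvPolynomial (Fin 2) k) := RingHom.ker φ with hP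
  have hPp : P.IsPrime := RingHom.ker_isPrime φ
  have hc₀P : c₀ ∈ P := by
    rw [hP, RingHom.mem_ker, hc₀]
    simp only [map_add, map_mul, map_pow, hφ0, hφ1, hφC, mul_pow]
    rw [← Polynomial.C_pow, hθ]
    simp only [Polynomial.C_neg]
    ring
  have hd : ∀ h ∈ P ^ 2, φ (pderiv 0 h) = 0 := by
    intro h hh
    rw [pow_two] at hh
    refine Submodule.mul_induction_on hh ?_ ?_
    · intro a ha b hb
      rw [hP, RingHom.mem_ker] at ha hb
      rw [pderiv_mul, map_add, map_mul, map_mul, ha, hb, mul_zero, zero_mul, add_zero]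
    · intro a b ha hb
      rw [map_add, map_add, ha, hb, add_zero]
  have hc₀2 : c₀ ∉ P ^ 2 := by
    intro h
    have h2 := hd c₀ h
    obtain ⟨i, rfl⟩ := Nat.exists_eq_succ_of_ne_zero hj
    have h3 : pderiv 0 c₀ = C (μ * ((i : k) + 1)) * X 0 ^ i := by
      rw [hc₀, map_add, pderiv_C_mul, pderiv_C_mul, pderiv_pow, pderiv_pow, pderiv_X_self,
        pderiv_X_of_ne (by decide : (1 : Fin 2) ≠ 0)]
      simp only [Nat.succ_eq_add_one, Nat.add_sub_cancel, mul_zero, add_zero, mul_one, C_mul,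
        C_add, C_1]
      push_cast
      rw [← map_natCast (C : k →+* MvPolynomial (Fin 2) k)]
      ring
    rw [h3, map_mul, map_pow, hφC, hφ0, mul_pow, ← Polynomial.C_pow, ← mul_assoc,
      ← Polynomial.C_mul] at h2
    have h4 := congrArg (Polynomial.coeff · i) h2
    simp only [Polynomial.coeff_C_mul, Polynomial.coeff_X_pow, if_pos, Polynomial.coeff_zero,
      mul_one] at h4
    have h5 : ((i : k) + 1) ≠ 0 := Nat.cast_add_one_ne_zero i
    exact mul_ne_zero (mul_ne_zero hμ h5) (pow_ne_zero i hθ0) h4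
  have hmon : (Polynomial.X ^ j + Polynomial.C c₀ : Polynomial (MvPolynomial (Fin 2) k)).Monic :=
    Polynomial.monic_X_pow_add_C _ hj
  have hdeg : (Polynomial.X ^ j + Polynomial.C c₀ : Polynomial (MvPolynomial (Fin 2) k)).degree =
      j := Polynomial.degree_X_pow_add_C (Nat.pos_of_ne_zero hj) _
  refine Polynomial.irreducible_of_eisenstein_criterion hPp ?_ ?_ ?_ ?_ hmon.isPrimitive
  · rw [hmon.leadingCoeff]
    exact fun h => hPp.ne_top ((Ideal.eq_top_iff_one _).2 h)
  · intro n hn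
    rw [hdeg, Nat.cast_lt] at hn
    rw [Polynomial.coeff_add, Polynomial.coeff_X_pow, if_neg (ne_of_lt hn), zero_add,
      Polynomial.coeff_C]
    split_ifs with h
    · exact hc₀P
    · exact P.zero_mem
  · rw [hdeg]
    exact_mod_cast Nat.pos_of_ne_zero hj
  · rw [Polynomial.coeff_add, Polynomial.coeff_X_pow, if_neg (Ne.symm hj), zero_add,
      Polynomial.coeff_C_zero]
    exact hc₀2

/-- The form stays irreducible over every field which contains `ℂ`. -/
theorem irreducible_map_lf {κ : Type*} [Field κ] (φ : ℂ →+* κ) {j : ℕ} (hj : j ≠ 0) {μ : ℂ}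
    (hμ : μ ≠ 0) : Irreducible (map φ (lf j μ)) := by
  have : CharZero κ := charZero_of_injective_ringHom φ.injective
  obtain ⟨θ, hθ⟩ := IsAlgClosed.exists_pow_nat_eq (-μ) (Nat.pos_of_ne_zero hj)
  have h := irreducible_fermat hj (μ := φ μ) (θ := φ θ) ((map_ne_zero φ).2 hμ)
    (by rw [← map_pow, hθ, map_neg])
  have e : map φ (lf j μ) = X 0 ^ j + C (φ μ) * X 1 ^ j + C ((φ μ) ^ 2) * X 2 ^ j := by
    simp only [lf, map_add, map_mul, map_pow, map_X, map_C]
  rwa [e]

lemma irreducible_lf {j : ℕ} (hj : j ≠ 0) {μ : ℂ} (hμ : μ ≠ 0) : Irreducible (lf j μ) := by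
  have := irreducible_map_lf (RingHom.id ℂ) hj hμ
  rwa [map_id] at this

lemma lf_homog (j : ℕ) (μ : ℂ) : (lf j μ).IsHomogeneous j := by
  have h : ∀ i : Fin 3, (X i ^ j : R3).IsHomogeneous j := by
    intro i
    have := (isHomogeneous_X ℂ i).pow j
    rwa [one_mul] at this
  refine ((h 0).add ?_).add ?_
  · have := (isHomogeneous_C (Fin 3) μ).mul (h 1)
    rwa [zero_add] at this
  · have := (isHomogeneous_C (Fin 3) (μ ^ 2)).mul (h 2)
    rwa [zero_add] at this

end Vale.Agent.P287.Mv
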