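import Vale.Agent.P287.Theta.PencilAlg

/-!
Over a Galois extension the irreducible factors of an irreducible form have the same degree.
-/

namespace Vale.Agent.P287.Mv

open MvPolynomial UniqueFactorizationMonoid

section Rel

variable {M : Type*} [CommMonoid M]

lemma rel_filter_prod {p : M → Prop} [DecidablePred p] (hp : ∀ a b, Associated a b → (p a ↔ p b))
    {A B : Multiset M} (h : Multiset.Rel Associated A B) :
    Associated (A.filter p).prod (B.filter p).prod := by
  induction h with
  | zero => exact Associated.refl _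
  | @cons a b as bs hab _ ih =>
    by_cases ha : p a
    · rw [Multiset.filter_cons_of_pos _ ha, Multiset.filter_cons_of_pos _ ((hp a b hab).1 ha),
        Multiset.prod_cons, Multiset.prod_cons]
      exact hab.mul_mul ih
    · rw [Multiset.filter_cons_of_neg _ ha,
        Multiset.filter_cons_of_neg _ (fun hb => ha ((hp a b hab).2 hb))]
      exact ih

end Rel

variable {σ : Type*} {K E : Type*} [Field K] [Field E] [Algebra K E]

/-- the action of the Galois group on polynomials -/
noncomputable def act (τ : E ≃ₐ[K] E) : MvPolynomial σ E ≃+* MvPolynomial σ E :=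
  mapEquiv σ (τ : E ≃+* E)

lemma act_apply (τ : E ≃ₐ[K] E) (p : MvPolynomial σ E) : act τ p = map (τ : E →+* E) p := rfl

lemma coeff_act (τ : E ≃ₐ[K] E) (p : MvPolynomial σ E) (m : σ →₀ ℕ) :
    coeff m (act τ p) = τ (coeff m p) := by
  rw [act_apply, coeff_map]
  rfl

lemma act_map (τ : E ≃ₐ[K] E) (G : MvPolynomial σ K) :
    act τ (map (algebraMap K E) G) = map (algebraMap K E) G := by
  ext m
  rw [coeff_act, coeff_map, AlgEquiv.commutes]

lemma act_C (τ : E ≃ₐ[K] E) (c : E) : act τ (C c : MvPolynomial σ E) = C (τ c) := by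
  rw [act_apply, map_C]
  rfl

lemma isUnit_iff_C {k : Type*} [Field k] {p : MvPolynomial σ k} :
    IsUnit p ↔ ∃ c : k, c ≠ 0 ∧ p = C c := by
  rw [isUnit_iff_eq_C_of_isReduced]
  constructor
  · rintro ⟨c, hc, h⟩
    exact ⟨c, hc.ne_zero, h⟩
  · rintro ⟨c, hc, h⟩
    exact ⟨c, isUnit_iff_ne_zero.2 hc, h⟩

lemma associated_iff_C {k : Type*} [Field k] {p q : MvPolynomial σ k} :
    Associated p q ↔ ∃ c : k, c ≠ 0 ∧ q = C c * p := by
  constructor
  · rintro ⟨u, hu⟩
    obtain ⟨c, hc, h⟩ := isUnit_iff_C.1 u.isUnit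
    exact ⟨c, hc, by rw [← hu, h, mul_comm]⟩
  · rintro ⟨c, hc, h⟩
    obtain ⟨u, hu⟩ := isUnit_iff_C.2 ⟨c, hc, rfl⟩
    exact ⟨u, by rw [hu, h, mul_comm]⟩

variable [IsGalois K E]

lemma mem_range_of_fixed {M : MvPolynomial σ E} (h : ∀ τ : E ≃ₐ[K] E, act τ M = M) :
    ∃ M₀ : MvPolynomial σ K, map (algebraMap K E) M₀ = M := by
  have h1 : M ∈ Set.range (map (algebraMap K E)) := by
    rw [mem_range_map_iff_coeffs_subset]
    intro c hc
    obtain ⟨m, _, rfl⟩ := mem_coeffs_iff.1 hc
    rw [InfiniteGalois.mem_range_algebraMap_iff_fixed]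
    intro τ
    have := congrArg (coeff m) (h τ)
    rwa [coeff_act] at this
  exact h1

/-- descent of a polynomial whose conjugates are associated -/
lemma exists_descent {M : MvPolynomial σ E} (hM : M ≠ 0)
    (h : ∀ τ : E ≃ₐ[K] E, Associated (act τ M) M) :
    ∃ M₀ : MvPolynomial σ K, Associated (map (algebraMap K E) M₀) M := by
  obtain ⟨m, hm⟩ := ne_zero_iff.1 hM
  set c := coeff m M with hc
  have h1 : ∀ τ : E ≃ₐ[K] E, act τ (C c⁻¹ * M) = C c⁻¹ * M := by
    intro τ
    obtain ⟨w, hw, h2⟩ := associated_iff_C.1 (h τ).symm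
    rw [map_mul, act_C, h2, ← mul_assoc, ← C_mul]
    have h3 := congrArg (coeff m) h2
    rw [coeff_act, coeff_C_mul, ← hc] at h3
    congr 2
    rw [map_inv₀, h3]
    field_simp
  obtain ⟨M₀, hM₀⟩ := mem_range_of_fixed h1
  refine ⟨M₀, ?_⟩
  rw [hM₀, associated_iff_C]
  exact ⟨c, hm, by rw [← mul_assoc, ← C_mul, mul_inv_cancel₀ hm, C_1, one_mul]⟩

omit [IsGalois K E] in
lemma map_injective' : Function.Injective (map (algebraMap K E) : MvPolynomial σ K → _) :=
  map_injective _ (algebraMap K E).injective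

omit [IsGalois K E] in
lemma isUnit_of_map {M : MvPolynomial σ K} (h : IsUnit M) : IsUnit (map (algebraMap K E) M) :=
  h.map _

/-- A stable divisor of an irreducible polynomial is trivial. -/
lemma stable_divisor {G : MvPolynomial σ K} (hG : Irreducible G) {M : MvPolynomial σ E}
    (hMG : M ∣ map (algebraMap K E) G) (hM : ¬ IsUnit M)
    (h : ∀ τ : E ≃ₐ[K] E, Associated (act τ M) M) : Associated M (map (algebraMap K E) G) := by
  have hG0 : map (algebraMap K E) G ≠ 0 := by
    intro h0
    exact hG.ne_zero (map_injective' (by rw [h0, map_zero]))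
  have hM0 : M ≠ 0 := by
    rintro rfl
    exact hG0 (zero_dvd_iff.1 hMG)
  obtain ⟨M₀, hM₀⟩ := exists_descent hM0 h
  obtain ⟨Q, hQ⟩ := hM₀.dvd.trans hMG
  have hM₀0 : map (algebraMap K E) M₀ ≠ 0 := by
    intro h0
    rw [h0, zero_mul] at hQ
    exact hG0 hQ
  have hQf : ∀ τ : E ≃ₐ[K] E, act τ Q = Q := by
    intro τ
    have h1 := congrArg (act τ) hQ
    rw [map_mul, act_map, act_map, hQ] at h1
    exact (mul_left_cancel₀ hM₀0 h1).symm
  obtain ⟨Q₀, rfl⟩ := mem_range_of_fixed hQf
  have hGM : G = M₀ * Q₀ := by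
    apply map_injective' (E := E)
    rw [hQ, map_mul]
  rcases hG.isUnit_or_isUnit hGM with h1 | h1
  · exact absurd ((hM₀.isUnit_iff).1 (isUnit_of_map h1)) hM
  · refine hM₀.symm.trans ?_
    rw [hQ]
    exact associated_mul_unit_right _ _ (isUnit_of_map h1)

lemma homogeneous_multiset_prod {k : Type*} [CommSemiring k] {F : Multiset (MvPolynomial σ k)}
    {a : ℕ} (h : ∀ P ∈ F, P.IsHomogeneous a) : F.prod.IsHomogeneous (F.card * a) := by
  induction F using Multiset.induction_on with
  | empty =>
    rw [Multiset.prod_zero, Multiset.card_zero, zero_mul]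
    exact isHomogeneous_one _ _
  | cons P F ih =>
    rw [Multiset.prod_cons, Multiset.card_cons, add_mul, one_mul, add_comm]
    exact (h P (Multiset.mem_cons_self _ _)).mul
      (ih fun Q hQ => h Q (Multiset.mem_cons_of_mem hQ))

/-- All the irreducible factors have the same degree. -/
theorem factors_degree {G : MvPolynomial σ K} {d : ℕ} (hG : Irreducible G)
    (hd : G.IsHomogeneous d) :
    ∃ (a : ℕ) (F : Multiset (MvPolynomial σ E)), (∀ P ∈ F, Irreducible P ∧ P.IsHomogeneous a) ∧
      Associated F.prod (map (algebraMap K E) G) ∧ F.card * a = d := by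
  classical
  set GE := map (algebraMap K E) G with hGE
  have hG0 : GE ≠ 0 := by
    intro h0
    exact hG.ne_zero (map_injective' (E := E) (by rw [← hGE, h0, map_zero]))
  have hGh : GE.IsHomogeneous d := hd.map _
  have hdvd : ∀ P ∈ factors GE, P ∣ GE := fun P hP => dvd_of_mem_factors hP
  have hirr : ∀ P ∈ factors GE, Irreducible P := fun P hP => irreducible_of_factor _ hP
  have hhom : ∀ P ∈ factors GE, ∃ a, P.IsHomogeneous a := by
    intro P hP
    obtain ⟨Q, hQ⟩ := hdvd P hP
    exact Theta.homog_of_mul (hQ ▸ hGh) (hQ ▸ hG0)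
  -- the case of a unit
  have hnu : ¬ IsUnit GE := by
    intro hu
    obtain ⟨c, hc, h⟩ := isUnit_iff_C.1 hu
    have h1 : d = 0 := by
      have h2 := hGh.totalDegree hG0
      rw [h, totalDegree_C] at h2
      exact h2.symm
    subst h1
    apply hG.not_isUnit
    have h2 : G = C (G.coeff 0) := by
      rw [← totalDegree_eq_zero_iff_eq_C]
      exact hd.totalDegree hG.ne_zero
    rw [isUnit_iff_C]
    refine ⟨_, ?_, h2⟩
    intro h3
    rw [h3, C_0] at h2
    exact hG.ne_zero h2
  obtain ⟨P₀, hP₀⟩ := exists_mem_factors hG0 hnu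
  set a := P₀.totalDegree with ha
  set F := factors GE with hF
  have hFp : Associated F.prod GE := factors_prod hG0
  let p : MvPolynomial σ E → Prop := fun P => P.totalDegree = a
  have hdeg : ∀ P Q : MvPolynomial σ E, Associated P Q → (p P ↔ p Q) := by
    intro P Q h
    obtain ⟨c, hc, rfl⟩ := associated_iff_C.1 h
    have : (C c * P).totalDegree = P.totalDegree := by
      by_cases hP : P = 0
      · rw [hP, mul_zero]
      · rw [totalDegree_mul_of_isDomain (by rwa [Ne, C_eq_zero]) hP, totalDegree_C, zero_add]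
    change P.totalDegree = a ↔ (C c * P).totalDegree = a
    rw [this]
  have hact : ∀ (τ : E ≃ₐ[K] E) (P : MvPolynomial σ E), (act τ P).totalDegree = P.totalDegree := by
    intro τ P
    have h1 : (act τ P).support = P.support := by
      ext m
      rw [mem_support_iff, mem_support_iff, coeff_act, Ne, Ne, map_eq_zero_iff _ τ.injective]
    rw [totalDegree, totalDegree, h1]
  set M := (F.filter p).prod with hM
  have hstab : ∀ τ : E ≃ₐ[K] E, Associated (act τ M) M := by
    intro τ
    have h1 : Multiset.Rel Associated (F.map (act τ)) F := by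
      apply factors_unique
      · intro x hx
        obtain ⟨P, hP, rfl⟩ := Multiset.mem_map.1 hx
        exact (MulEquiv.irreducible_iff (act τ)).2 (hirr P hP)
      · exact hirr
      · rw [Multiset.prod_hom]
        have h2 : Associated (act τ F.prod) (act τ GE) := hFp.map (act τ)
        rw [hGE, act_map, ← hGE] at h2
        exact h2.trans hFp.symm
    have h2 := rel_filter_prod hdeg h1
    rw [Multiset.filter_map] at h2
    have h3 : F.filter (p ∘ act τ) = F.filter p := by
      apply Multiset.filter_congr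
      intro P _
      change (act τ P).totalDegree = a ↔ P.totalDegree = a
      rw [hact]
    rw [h3, Multiset.prod_hom] at h2
    exact h2
  have hsplit : F.prod = M * (F.filter fun P => ¬ p P).prod := by
    rw [hM, ← Multiset.prod_add, Multiset.filter_add_not]
  have hMd : M ∣ GE := (Dvd.intro _ hsplit.symm).trans hFp.dvd
  have hMu : ¬ IsUnit M := by
    intro hu
    have h1 : P₀ ∣ M := Multiset.dvd_prod (Multiset.mem_filter.2 ⟨hP₀, rfl⟩)
    exact (hirr P₀ hP₀).not_isUnit (isUnit_of_dvd_unit h1 hu)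
  have hMG : Associated M GE := stable_divisor hG hMd hMu hstab
  have hall : ∀ P ∈ F, p P := by
    intro P hP
    by_contra hn
    have h1 : P ∣ (F.filter fun P => ¬ p P).prod := Multiset.dvd_prod (Multiset.mem_filter.2 ⟨hP, hn⟩)
    have h2 : IsUnit (F.filter fun P => ¬ p P).prod := by
      have h3 : Associated (M * (F.filter fun P => ¬ p P).prod) (M * 1) := by
        rw [← hsplit, mul_one]
        exact hFp.trans hMG.symm
      have hM0 : M ≠ 0 := by
        rintro h0
        rw [h0] at hMG
        exact hG0 (hMG.eq_zero_iff.1 rfl)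
      exact associated_one_iff_isUnit.1 (h3.of_mul_left (Associated.refl _) hM0)
    exact (hirr P hP).not_isUnit (isUnit_of_dvd_unit h1 h2)
  have hhom' : ∀ P ∈ F, P.IsHomogeneous a := by
    intro P hP
    obtain ⟨m, hm⟩ := hhom P hP
    have h1 := hm.totalDegree (hirr P hP).ne_zero
    rw [show P.totalDegree = a from hall P hP] at h1
    rwa [h1]
  refine ⟨a, F, fun P hP => ⟨hirr P hP, hhom' P hP⟩, hFp, ?_⟩
  have h1 : F.prod.IsHomogeneous (F.card * a) := homogeneous_multiset_prod hhom'
  have h2 : F.prod ≠ 0 := fun h0 => hG0 (hFp.eq_zero_iff.1 h0)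
  obtain ⟨c, hc, h3⟩ := associated_iff_C.1 hFp
  have h4 := h1.totalDegree h2
  have h5 := hGh.totalDegree hG0
  rw [h3, totalDegree_mul_of_isDomain (by rwa [Ne, C_eq_zero]) h2, totalDegree_C, zero_add, h4] at h5
  exact h5

end Vale.Agent.P287.Mv
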