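import Vale.Agent.P287.Mv.Fermat

/-!
The pencil is irreducible over `ℂ(T)`.
-/

namespace Vale.Agent.P287.Mv

open MvPolynomial

section quad

variable {R : Type*} [CommRing R] [IsDomain R] [UniqueFactorizationMonoid R]

omit [UniqueFactorizationMonoid R] in
lemma not_sq_mul_prime [WfDvdMonoid R] {f A B : R} (hf : Prime f) (hB : B ≠ 0)
    (h : A ^ 2 = B ^ 2 * f) : False := by
  have hA : A ≠ 0 := by
    rintro rfl
    rw [zero_pow two_ne_zero] at h
    exact mul_ne_zero (pow_ne_zero 2 hB) hf.ne_zero h.symm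
  have h1 : FiniteMultiplicity f A := FiniteMultiplicity.of_prime_left hf hA
  have h2 : FiniteMultiplicity f B := FiniteMultiplicity.of_prime_left hf hB
  have h3 := congrArg (emultiplicity f) h
  rw [emultiplicity_pow hf, emultiplicity_mul hf, emultiplicity_pow hf,
    h1.emultiplicity_eq_multiplicity, h2.emultiplicity_eq_multiplicity,
    (FiniteMultiplicity.of_prime_left hf hf.ne_zero).emultiplicity_eq_multiplicity,
    multiplicity_self] at h3
  norm_cast at h3
  omega

omit [IsDomain R] [UniqueFactorizationMonoid R] in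
lemma coeff_quad (a b c : R) :
    (Polynomial.C a + Polynomial.C b * Polynomial.X + Polynomial.C c * Polynomial.X ^ 2).coeff 0 =
      a ∧
    (Polynomial.C a + Polynomial.C b * Polynomial.X + Polynomial.C c * Polynomial.X ^ 2).coeff 1 =
      b ∧
    (Polynomial.C a + Polynomial.C b * Polynomial.X + Polynomial.C c * Polynomial.X ^ 2).coeff 2 =
      c := by
  refine ⟨by simp, ?_, ?_⟩
  · simp [Polynomial.coeff_C]
  · simp [Polynomial.coeff_X]

/-- a primitive quadratic polynomial whose discriminant is not a square is irreducible -/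
theorem quad_irreducible [CharZero R] {α β γ f δ : R} (hα : α ≠ 0) (hf : Prime f) (hδ : δ ≠ 0)
    (hdisc : β ^ 2 - α * γ = δ ^ 2 * f) (hcop : ∀ π : R, Irreducible π → π ∣ α → ¬ π ∣ γ) :
    Irreducible (Polynomial.C γ + Polynomial.C (2 * β) * Polynomial.X +
      Polynomial.C α * Polynomial.X ^ 2) := by
  set G := Polynomial.C γ + Polynomial.C (2 * β) * Polynomial.X +
      Polynomial.C α * Polynomial.X ^ 2 with hG
  obtain ⟨c0, c1, c2⟩ := coeff_quad γ (2 * β) α
  rw [← hG] at c0 c1 c2
  have hdeg : G.natDegree = 2 := by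
    have : G = Polynomial.C α * Polynomial.X ^ 2 + Polynomial.C (2 * β) * Polynomial.X +
        Polynomial.C γ := by rw [hG]; ring
    rw [this]
    exact Polynomial.natDegree_quadratic hα
  have hG0 : G ≠ 0 := by
    intro h
    rw [h, Polynomial.natDegree_zero] at hdeg
    exact absurd hdeg (by norm_num)
  -- a constant factor is a unit
  have hconst : ∀ P Q : Polynomial R, G = P * Q → P.natDegree = 0 → IsUnit P := by
    intro P Q h hP
    obtain ⟨p, rfl⟩ := Polynomial.natDegree_eq_zero.1 hP
    rw [Polynomial.isUnit_C]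
    by_contra hp
    have hp0 : p ≠ 0 := by
      rintro rfl
      rw [Polynomial.C_0, zero_mul] at h
      exact hG0 h
    obtain ⟨π, hπ, hπp⟩ := WfDvdMonoid.exists_irreducible_factor hp hp0
    have h0 := congrArg (Polynomial.coeff · 0) h
    have h2 := congrArg (Polynomial.coeff · 2) h
    simp only [Polynomial.coeff_C_mul, c0, c2] at h0 h2
    exact hcop π hπ (hπp.trans ⟨_, h2⟩) (hπp.trans ⟨_, h0⟩)
  refine ⟨?_, ?_⟩
  · intro hu
    have := Polynomial.natDegree_eq_zero_of_isUnit hu
    rw [hdeg] at this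
    exact absurd this (by norm_num)
  · intro P Q h
    have hP0 : P ≠ 0 := by rintro rfl; rw [zero_mul] at h; exact hG0 h
    have hQ0 : Q ≠ 0 := by rintro rfl; rw [mul_zero] at h; exact hG0 h
    have hd := congrArg Polynomial.natDegree h
    rw [hdeg, Polynomial.natDegree_mul hP0 hQ0] at hd
    by_cases hP : P.natDegree = 0
    · exact Or.inl (hconst P Q h hP)
    by_cases hQ : Q.natDegree = 0
    · exact Or.inr (hconst Q P (by rw [h, mul_comm]) hQ)
    exfalso
    have hP1 : P.natDegree = 1 := by omega
    have hQ1 : Q.natDegree = 1 := by omega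
    have eP := Polynomial.eq_X_add_C_of_natDegree_le_one hP1.le
    have eQ := Polynomial.eq_X_add_C_of_natDegree_le_one hQ1.le
    set p1 := P.coeff 1
    set p0 := P.coeff 0
    set q1 := Q.coeff 1
    set q0 := Q.coeff 0
    have hPQ : G = Polynomial.C (p0 * q0) + Polynomial.C (p1 * q0 + p0 * q1) * Polynomial.X +
        Polynomial.C (p1 * q1) * Polynomial.X ^ 2 := by
      rw [h, eP, eQ]
      simp only [Polynomial.C_add, Polynomial.C_mul]
      ring
    obtain ⟨d0, d1, d2⟩ := coeff_quad (p0 * q0) (p1 * q0 + p0 * q1) (p1 * q1)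
    rw [← hPQ] at d0 d1 d2
    have e0 : γ = p0 * q0 := by rw [← c0, d0]
    have e1 : 2 * β = p1 * q0 + p0 * q1 := by rw [← c1, d1]
    have e2 : α = p1 * q1 := by rw [← c2, d2]
    refine not_sq_mul_prime (A := p1 * q0 - p0 * q1) (B := 2 * δ) hf
      (mul_ne_zero two_ne_zero hδ) ?_
    linear_combination 4 * hdisc - (2 * β + p1 * q0 + p0 * q1) * e1 +
      4 * p0 * q0 * e2 + 4 * α * e0

end quad

section swap

/-- exchange of the variables -/
noncomputable def swapTo : MvPolynomial (Fin 3) (Polynomial ℂ) →+* Polynomial R3 :=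
  eval₂Hom (Polynomial.mapRingHom (C : ℂ →+* R3)) fun i => Polynomial.C (X i)

noncomputable def swapInv : Polynomial R3 →+* MvPolynomial (Fin 3) (Polynomial ℂ) :=
  Polynomial.eval₂RingHom (map Polynomial.C) (C Polynomial.X)

lemma swapTo_map (p : R3) : swapTo (map Polynomial.C p) = Polynomial.C p := by
  have h : swapTo.comp (map (Polynomial.C : ℂ →+* Polynomial ℂ)) =
      (Polynomial.C : R3 →+* Polynomial R3) := by
    apply MvPolynomial.ringHom_ext
    · intro a
      rw [RingHom.comp_apply, map_C, swapTo, eval₂Hom_C]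
      simp
    · intro i
      rw [RingHom.comp_apply, map_X, swapTo, eval₂Hom_X']
  exact RingHom.congr_fun h p

lemma swapTo_C (p : Polynomial ℂ) : swapTo (C p) = Polynomial.mapRingHom (C : ℂ →+* R3) p := by
  rw [swapTo, eval₂Hom_C]

lemma swapTo_X (i : Fin 3) : swapTo (X i) = Polynomial.C (X i) := by
  rw [swapTo, eval₂Hom_X']

lemma swapInv_C (p : R3) : swapInv (Polynomial.C p) = map Polynomial.C p := by
  simp [swapInv]

lemma swapInv_X : swapInv Polynomial.X = C Polynomial.X := by
  simp [swapInv]

noncomputable def swapE : MvPolynomial (Fin 3) (Polynomial ℂ) ≃+* Polynomial R3 :=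
  RingEquiv.ofRingHom swapTo swapInv
    (by
      apply Polynomial.ringHom_ext
      · intro p
        rw [RingHom.comp_apply, swapInv_C, swapTo_map]
        rfl
      · rw [RingHom.comp_apply, swapInv_X, swapTo_C]
        simp)
    (by
      apply MvPolynomial.ringHom_ext
      · intro p
        rw [RingHom.comp_apply, swapTo_C, RingHom.id_apply]
        have h : (swapInv.comp (Polynomial.mapRingHom (C : ℂ →+* R3))) =
            (C : Polynomial ℂ →+* MvPolynomial (Fin 3) (Polynomial ℂ)) := by
          apply Polynomial.ringHom_ext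
          · intro a
            rw [RingHom.comp_apply]
            simp only [Polynomial.coe_mapRingHom, Polynomial.map_C]
            rw [swapInv_C, map_C]
          · rw [RingHom.comp_apply]
            simp only [Polynomial.coe_mapRingHom, Polynomial.map_X]
            rw [swapInv_X]
        exact RingHom.congr_fun h p
      · intro i
        rw [RingHom.comp_apply, swapTo_X, swapInv_C, map_X]
        rfl)

lemma swapE_apply (p : MvPolynomial (Fin 3) (Polynomial ℂ)) : swapE p = swapTo p := rfl

lemma swapTo_pencil (g₀ a l g : R3) : swapTo (pencil g₀ a l g) =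
    Polynomial.C g₀ + Polynomial.C (2 * (l * a)) * Polynomial.X +
      Polynomial.C (l ^ 2 * g) * Polynomial.X ^ 2 := by
  rw [pencil]
  simp only [map_add, map_mul, map_pow, swapTo_map, swapTo_C, map_ofNat,
    Polynomial.coe_mapRingHom, Polynomial.map_X]
  ring

end swap

/-- the pencil is irreducible over `ℂ[T]` -/
theorem pencil_irreducible {f g a b g₀ l : R3} (hf : Irreducible f) (hg : Irreducible g)
    (hl : Irreducible l) (hgg : ¬ g ∣ g₀) (hlg : ¬ l ∣ g₀) (hb : b ≠ 0)
    (h : a ^ 2 - b ^ 2 * f = g * g₀) : Irreducible (pencil g₀ a l g) := by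
  rw [← MulEquiv.irreducible_iff swapE]
  change Irreducible (swapTo (pencil g₀ a l g))
  rw [swapTo_pencil]
  refine quad_irreducible (f := f) (δ := l * b)
    (mul_ne_zero (pow_ne_zero 2 hl.ne_zero) hg.ne_zero) hf.prime (mul_ne_zero hl.ne_zero hb) ?_ ?_
  · linear_combination l ^ 2 * h
  · intro π hπ h1 h2
    rcases hπ.prime.dvd_or_dvd h1 with h3 | h3
    · exact hlg ((hπ.associated_of_dvd hl (hπ.prime.dvd_of_dvd_pow h3)).symm.dvd.trans h2)
    · exact hgg ((hπ.associated_of_dvd hg h3).symm.dvd.trans h2)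

lemma pencil_homog {g₀ a l g : R3} {n j : ℕ} (hg₀ : g₀.IsHomogeneous (n + 2 * j))
    (ha : a.IsHomogeneous (n + j)) (hl : l.IsHomogeneous j) (hg : g.IsHomogeneous n) :
    (pencil g₀ a l g).IsHomogeneous (n + 2 * j) := by
  have h1 : (l * a).IsHomogeneous (n + 2 * j) := by
    have := hl.mul ha
    rwa [show j + (n + j) = n + 2 * j by ring] at this
  have h2 : (l ^ 2 * g).IsHomogeneous (n + 2 * j) := by
    have := (hl.pow 2).mul hg
    rwa [show j * 2 + n = n + 2 * j by ring] at this
  have hC : ∀ (p : Polynomial ℂ) (q : MvPolynomial (Fin 3) (Polynomial ℂ)),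
      q.IsHomogeneous (n + 2 * j) → (C p * q).IsHomogeneous (n + 2 * j) := by
    intro p q hq
    have := (isHomogeneous_C (Fin 3) p).mul hq
    rwa [zero_add] at this
  exact ((hg₀.map _).add (hC _ _ (h1.map _))).add (hC _ _ (h2.map _))

attribute [local instance] MvPolynomial.algebraMvPolynomial in
/-- the pencil is irreducible over `ℂ(T)` -/
theorem pencil_irreducible_frac {G : MvPolynomial (Fin 3) (Polynomial ℂ)} {d : ℕ} (hd : d ≠ 0)
    (hG : G.IsHomogeneous d) (hi : Irreducible G) :
    Irreducible (map (algebraMap (Polynomial ℂ) (FractionRing (Polynomial ℂ))) G) := by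
  have hloc := MvPolynomial.isLocalization (σ := Fin 3) (nonZeroDivisors (Polynomial ℂ))
    (FractionRing (Polynomial ℂ))
  have hdis : Disjoint (((nonZeroDivisors (Polynomial ℂ)).map
      (C (σ := Fin 3)) : Submonoid (MvPolynomial (Fin 3) (Polynomial ℂ))) :
      Set (MvPolynomial (Fin 3) (Polynomial ℂ)))
      ((Ideal.span {G} : Ideal (MvPolynomial (Fin 3) (Polynomial ℂ))) : Set _) := by
    rw [Set.disjoint_left]
    rintro _ ⟨c, hc, rfl⟩ h
    rw [SetLike.mem_coe, Ideal.mem_span_singleton] at h
    obtain ⟨S, hS⟩ := h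
    have hc0 : c ≠ 0 := nonZeroDivisors.ne_zero hc
    have hS0 : S ≠ 0 := by
      rintro rfl
      rw [mul_zero] at hS
      exact hc0 ((C_eq_zero).1 hS)
    have h1 := totalDegree_mul_of_isDomain hi.ne_zero hS0
    have h2 : (C c : MvPolynomial (Fin 3) (Polynomial ℂ)).totalDegree = 0 := totalDegree_C _
    have h3 : (G * S).totalDegree = 0 := by
      rw [← hS]
      exact h2
    rw [h3, hG.totalDegree hi.ne_zero] at h1
    omega
  have hp := IsLocalization.isPrime_of_isPrime_disjoint
    ((nonZeroDivisors (Polynomial ℂ)).map (C (σ := Fin 3)))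
    (MvPolynomial (Fin 3) (FractionRing (Polynomial ℂ))) (Ideal.span {G})
    ((Ideal.span_singleton_prime hi.ne_zero).2 hi.prime) hdis
  rw [Ideal.map_span, Set.image_singleton] at hp
  have h0 : map (algebraMap (Polynomial ℂ) (FractionRing (Polynomial ℂ))) G ≠ 0 := by
    intro h
    exact hi.ne_zero (map_injective _ (IsFractionRing.injective _ _) (by rw [h, map_zero]))
  exact ((Ideal.span_singleton_prime h0).1 hp).irreducible

end Vale.Agent.P287.Mv
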