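import Vale.Agent.P287.Mv.Spec0
import Vale.Agent.P287.H69.Genus

/-!
The moving lemma for the odd theorem: literal statements.
-/

namespace Vale.Agent.P287.Mv

open MvPolynomial Vale.Agent.P287.Theta Vale.Agent.P287.H69

/-- [MV1] an element of the ideal of the conjugate curve which generates it at the ramification
points -/
def Stmt1 : Prop := ∀ (f g c s : R3) (n e : ℕ), f.IsHomogeneous 6 → SmoothTernary f →
  g.IsHomogeneous n → n ≠ 0 → Irreducible g → ¬ g ∣ f → c.IsHomogeneous e → ¬ g ∣ c →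
  s.IsHomogeneous (e + 3) → g ∣ c ^ 2 * f - s ^ 2 →
  ∀ N : ℕ, ∃ j ≥ N, ∃ a b g₀ : R3, 3 ≤ n + j ∧ a.IsHomogeneous (n + j) ∧
    b.IsHomogeneous (n + j - 3) ∧ g₀.IsHomogeneous (n + 2 * j) ∧ g ∣ c * a - s * b ∧
    a ^ 2 - b ^ 2 * f = g * g₀ ∧ ¬ f ∣ b ∧
    ∀ z : Fin 3 → ℂ, z ≠ 0 → aeval z f = 0 → aeval z g = 0 → aeval z g₀ ≠ 0

/-- [MV4] the arithmetic genus of the linked curve -/
def Stmt4 : Prop := ∀ (f g c s a b g' : R3) (n e j p : ℕ), f.IsHomogeneous 6 →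
  g.IsHomogeneous n → Irreducible g → ¬ g ∣ f → c.IsHomogeneous e → ¬ g ∣ c →
  s.IsHomogeneous (e + 3) → g ∣ c ^ 2 * f - s ^ 2 → 3 ≤ n + j → a.IsHomogeneous (n + j) →
  b.IsHomogeneous (n + j - 3) → g ∣ c * a - s * b → ¬ g ∣ a → a ^ 2 - b ^ 2 * f = g * g' →
  g'.IsHomogeneous (n + 2 * j) → Irreducible g' → ¬ g' ∣ b → HasGenus g c s n p →
  HasGenus g' b (-a) (n + 2 * j) (p + j * (j + n))

end Vale.Agent.P287.Mv
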